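import Vale.Agent.P042.WMain
import Vale.Agent.P042.CubicMain

namespace Vale.Agent.Results.P042.GeneralUpperBounds

open Polynomial

/-- `N exp(-c √(log N log log N))` for every intersective polynomial, and
`N exp(-c log N / log log N)` for every intersective cubic. -/
theorem result :
    (∀ k : ℕ, 2 ≤ k → ∃ c : ℝ, 0 < c ∧ ∀ h : ℤ[X], h.natDegree = k →
      0 < h.leadingCoeff → (∀ q : ℕ, 1 ≤ q → ∃ t : ℤ, (q : ℤ) ∣ h.eval t) →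
      ∃ C : ℝ, ∀ N : ℕ, ∀ A : Finset ℕ, A ⊆ Finset.Icc 1 N →
        (∀ a ∈ A, ∀ b ∈ A, ∀ n : ℕ, 1 ≤ n → (a : ℤ) - (b : ℤ) = h.eval (n : ℤ) → a = b) →
        (A.card : ℝ) ≤
          C * (N : ℝ) * Real.exp (-(c * Real.sqrt (Real.log N * Real.log (Real.log N))))) ∧
    (∀ h : ℤ[X], h.natDegree = 3 → 0 < h.leadingCoeff →
      (∀ q : ℕ, 1 ≤ q → ∃ t : ℤ, (q : ℤ) ∣ h.eval t) →
      ∃ c : ℝ, 0 < c ∧ ∃ C : ℝ, ∀ N : ℕ, 3 ≤ N → ∀ A : Finset ℕ, A ⊆ Finset.Icc 1 N →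
        (∀ a ∈ A, ∀ b ∈ A, ∀ n : ℕ, 1 ≤ n → (a : ℤ) - (b : ℤ) = h.eval (n : ℤ) → a = b) →
        (A.card : ℝ) ≤ C * (N : ℝ) * Real.exp (-(c * (Real.log N / Real.log (Real.log N))))) :=
  ⟨fun k hk => Vale.Agent.P042.Gen.Mid.w_bound k hk,
    fun h hd hl hint => Vale.Agent.P042.Cubic.cubic_bound h hd hl hint⟩

end Vale.Agent.Results.P042.GeneralUpperBounds
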