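import Vale.Agent.P042Lower.Amplify
import Vale.Agent.P042Lower.Data
import Vale.Agent.P042Pow.Assemble

/-! Lower bounds for sets avoiding square differences and k-th power differences, k even. -/

open Finset
open Vale.Agent

namespace Vale.Agent.Results.P042.PowerDiffLowerBound

open Vale.Agent.P042Lower in
lemma blocks_coprime : ∀ i j : Fin 11, i ≠ j → Nat.Coprime (blocks i).M (blocks j).M := by
  decide +kernel

open Vale.Agent.P042Lower in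
lemma card_blocks : ∀ i : Fin 11, (blocks i).R.card =
    ![215 * 17, 299 * 19, 3 * 2, 30, 11 * 4, 31 * 7, 7 * 3, 19 * 5, 59 * 9, 103 * 11, 71 * 9] i := by
  intro i
  fin_cases i <;>
    simp [blocks, card_block215, card_block299, card_block3, card_block64, card_block11, card_block31, card_block7, card_block19, card_block59, card_block103, card_block71]

open Vale.Agent.P042Lower in
lemma arithmetic :
    ((univ.sup fun i : Fin 11 => (blocks i).H ^ levels i) *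
        ∏ i : Fin 11, (blocks i).M ^ levels i) ^ 143 ≤
      (∏ i : Fin 11, (![215 * 17, 299 * 19, 3 * 2, 30, 11 * 4, 31 * 7, 7 * 3, 19 * 5, 59 * 9, 103 * 11, 71 * 9] i) ^ levels i) ^ 189 := by
  decide +kernel

open Vale.Agent.P042Lower in
lemma one_lt_base : 1 < (univ.sup fun i : Fin 11 => (blocks i).H ^ levels i) *
    ∏ i : Fin 11, (blocks i).M ^ levels i := by
  decide +kernel

/-- The square case: exponent `0.7566`. -/
theorem square_bound :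
    ∃ c : ℝ, 0 < c ∧ ∀ N : ℕ, ∃ A : Finset ℕ, A ⊆ Finset.Icc 1 N ∧
      c * (N : ℝ) ^ ((7566 : ℝ) / 10000) ≤ (A.card : ℝ) ∧
      ∀ a ∈ A, ∀ b ∈ A, ∀ n : ℕ, 1 ≤ n → ((a : ℤ) - (b : ℤ)) ≠ (n : ℤ) ^ 2 := by
  refine P042Lower.bound_of_blocks P042Lower.blocks P042Lower.levels 143 189 (by norm_num)
    blocks_coprime one_lt_base ?_ _ (by norm_num) (by norm_num)
  rw [Finset.prod_congr rfl (fun i (_ : i ∈ (univ : Finset (Fin 11))) =>
    congrArg (fun m => m ^ P042Lower.levels i) (card_blocks i))]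
  exact arithmetic

open Vale.Agent.P042Pow in
theorem even_bound (k : ℕ) (h2 : 2 ∣ k) (h4 : 4 ≤ k) :
    ∃ c : ℝ, 0 < c ∧ ∀ N : ℕ, ∃ A : Finset ℕ, A ⊆ Finset.Icc 1 N ∧
      c * (N : ℝ) ^ (1 - ((1 : ℕ) : ℝ) / (((2 : ℕ) : ℝ) * k)) ≤ (A.card : ℝ) ∧
      ∀ x ∈ A, ∀ y ∈ A, ∀ t : ℕ, 1 ≤ t → ((x : ℤ) - (y : ℤ)) ≠ (t : ℤ) ^ k :=
  exponent_bound (by omega) (blocksTwo k h2 h4) baseTwo chkTwo sizeTwo heightTwo levelsTwo 1 2
    (specTwo k h2 h4) (by decide +kernel) (by decide +kernel) (by decide +kernel)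
    (by decide +kernel) (by decide +kernel) (by omega)

open Vale.Agent.P042Pow in
theorem four_bound (k : ℕ) (h2 : 4 ∣ k) (h4 : 4 ≤ k) :
    ∃ c : ℝ, 0 < c ∧ ∀ N : ℕ, ∃ A : Finset ℕ, A ⊆ Finset.Icc 1 N ∧
      c * (N : ℝ) ^ (1 - ((71 : ℕ) : ℝ) / (((200 : ℕ) : ℝ) * k)) ≤ (A.card : ℝ) ∧
      ∀ x ∈ A, ∀ y ∈ A, ∀ t : ℕ, 1 ≤ t → ((x : ℤ) - (y : ℤ)) ≠ (t : ℤ) ^ k :=
  exponent_bound (by omega) (blocksFour k h2 h4) baseFour chkFour sizeFour heightFour levelsFour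
    71 200 (specFour k h2 h4) (by decide +kernel) (by decide +kernel) (by decide +kernel)
    (by decide +kernel) (by decide +kernel) (by omega)

/-- Lower bounds for sets without k-th power differences, k even: `N^0.7566` for squares,
`N^(1-1/(2k))` for every even k, and `N^(1-71/(200k))` when 4 divides k. -/
theorem result :
    (∃ c : ℝ, 0 < c ∧ ∀ N : ℕ, ∃ A : Finset ℕ, A ⊆ Finset.Icc 1 N ∧
      c * (N : ℝ) ^ ((7566 : ℝ) / 10000) ≤ (A.card : ℝ) ∧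
      ∀ a ∈ A, ∀ b ∈ A, ∀ n : ℕ, 1 ≤ n → ((a : ℤ) - (b : ℤ)) ≠ (n : ℤ) ^ 2) ∧
    (∀ k : ℕ, 4 ≤ k → 2 ∣ k →
      ∃ c : ℝ, 0 < c ∧ ∀ N : ℕ, ∃ A : Finset ℕ, A ⊆ Finset.Icc 1 N ∧
        c * (N : ℝ) ^ (1 - 1 / (2 * (k : ℝ))) ≤ (A.card : ℝ) ∧
        ∀ a ∈ A, ∀ b ∈ A, ∀ n : ℕ, 1 ≤ n → ((a : ℤ) - (b : ℤ)) ≠ (n : ℤ) ^ k) ∧
    (∀ k : ℕ, 4 ≤ k → 4 ∣ k →
      ∃ c : ℝ, 0 < c ∧ ∀ N : ℕ, ∃ A : Finset ℕ, A ⊆ Finset.Icc 1 N ∧
        c * (N : ℝ) ^ (1 - 71 / (200 * (k : ℝ))) ≤ (A.card : ℝ) ∧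
        ∀ a ∈ A, ∀ b ∈ A, ∀ n : ℕ, 1 ≤ n → ((a : ℤ) - (b : ℤ)) ≠ (n : ℤ) ^ k) := by
  refine ⟨square_bound, fun k h4 h2 => ?_, fun k h4 h2 => ?_⟩
  · simpa only [Nat.cast_one, Nat.cast_ofNat] using even_bound k h2 h4
  · simpa only [Nat.cast_ofNat] using four_bound k h2 h4

end Vale.Agent.Results.P042.PowerDiffLowerBound
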