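import Vale.Agent.P042.Odd
import Vale.Agent.P042.BranchLocal

namespace Vale.Agent.Results.P042.PowerSavingRoots

open Polynomial

/-- Power saving for every `h` which is intersective and has no repeated factor, or is intersective
through roots of odd multiplicity, or has at every prime a root at which `-1` is a power of the
multiplicity, or is made odd by a substitution. -/
theorem result : ∀ h : ℤ[X], 2 ≤ h.natDegree → 0 < h.leadingCoeff →
    (((∀ q : ℕ, 1 ≤ q → ∃ t : ℤ, (q : ℤ) ∣ h.eval t) ∧ Squarefree (h.map (Int.castRingHom ℚ))) ∨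
      (∃ h1 : ℤ[X], (∀ q : ℕ, 1 ≤ q → ∃ t : ℤ, (q : ℤ) ∣ h1.eval t) ∧
        ∀ r : ℂ, (h1.map (Int.castRingHom ℂ)).eval r = 0 →
          Odd ((h.map (Int.castRingHom ℂ)).rootMultiplicity r)) ∨
      (∀ (p : ℕ) [Fact p.Prime], ∃ z : ℤ_[p], (h.map (Int.castRingHom ℤ_[p])).eval z = 0 ∧
        ∃ ζ : ℤ_[p], ζ ^ (h.map (Int.castRingHom ℤ_[p])).rootMultiplicity z = -1) ∨
      (∃ P : ℤ[X], 1 ≤ P.natDegree ∧ ∀ x : ℤ, h.eval (P.eval (-x)) = -h.eval (P.eval x))) →
    ∃ c : ℝ, 0 < c ∧ ∃ C : ℝ, ∀ N : ℕ, ∀ A : Finset ℕ, A ⊆ Finset.Icc 1 N →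
      (∀ a ∈ A, ∀ b ∈ A, ∀ n : ℕ, 1 ≤ n → (a : ℤ) - (b : ℤ) = h.eval (n : ℤ) → a = b) →
      (A.card : ℝ) ≤ C * (N : ℝ) ^ (1 - c) := by
  intro h hk hl hh
  have h0 : h ≠ 0 := ne_zero_of_natDegree_gt (show 0 < h.natDegree by omega)
  rcases hh with ⟨hint, hsq⟩ | ⟨h1, hint, hodd⟩ | hroot | ⟨P, hP1, hodd⟩
  · refine Vale.Agent.P042.Branch.power_saving_root h hk hl
      (Vale.Agent.P042.Branch.rootCond_of_odd h h h0 hint fun r hr => ?_)
    have hC : h.map (Int.castRingHom ℂ) ≠ 0 :=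
      (Polynomial.map_ne_zero_iff (RingHom.injective_int _)).mpr h0
    have hsep : (h.map (Int.castRingHom ℂ)).Separable := by
      have := (PerfectField.separable_iff_squarefree.mpr hsq).map (f := algebraMap ℚ ℂ)
      rwa [Polynomial.map_map, RingHom.ext_int ((algebraMap ℚ ℂ).comp (Int.castRingHom ℚ))
        (Int.castRingHom ℂ)] at this
    have h2 : 0 < (h.map (Int.castRingHom ℂ)).rootMultiplicity r := (rootMultiplicity_pos hC).mpr hr
    have h3 := rootMultiplicity_le_one_of_separable hsep r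
    rw [show (h.map (Int.castRingHom ℂ)).rootMultiplicity r = 1 by omega]
    exact odd_one
  · exact Vale.Agent.P042.Branch.power_saving_root h hk hl
      (Vale.Agent.P042.Branch.rootCond_of_odd h h1 h0 hint hodd)
  · exact Vale.Agent.P042.Branch.power_saving_root h hk hl hroot
  · exact Vale.Agent.P042.power_saving_odd h P hk hl hP1 hodd

end Vale.Agent.Results.P042.PowerSavingRoots
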